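import Vale.Agent.P151.Link

namespace Vale.Agent.Results.P151.Lattice

open Vale.Agent.P151

theorem result (d : ℕ) (hd : 2 ≤ d) :
    pc (lattice d) < 1 ∧ perc (lattice d) (pc (lattice d)) (infCluster (Fin d → ℤ)) = 0 := by
  obtain ⟨k, rfl⟩ := Nat.exists_eq_add_of_le' hd
  exact ⟨pc_lt_one k, no_percolation k⟩

end Vale.Agent.Results.P151.Lattice
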